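import Vale.Agent.P038.H972.TwoD

/-!
# The shift inequality for compatible families
-/

open Finset

namespace Vale.Agent.P038.H972

variable {V : Type*} [Fintype V] [DecidableEq V]

/-- closure -/
def clo (N : V → Finset V) (S : Finset V) : Finset V := S.biUnion N

omit [Fintype V] in
lemma mem_clo (N : V → Finset V) (S : Finset V) (u : V) : u ∈ clo N S ↔ ∃ x ∈ S, u ∈ N x := by
  simp [clo]

/-- excess -/
def dc (N : V → Finset V) (S : Finset V) : ℤ := ((clo N S).card : ℤ) - (S.card : ℤ)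

/-- compatible families -/
structure Fam (N L W : V → Finset V) : Prop where
  l : ∀ a, N a ⊆ L a
  w : ∀ a, N a ⊆ W a
  c : ∀ a b, b ∈ L a → a ∈ W b → a = b

/-- the erosion of a row family -/
def XX (N L : V → Finset V) (z : V) : Finset V := univ.filter (fun x => ∀ z', z ∈ N z' → x ∈ L z')

lemma mem_XX (N L : V → Finset V) (z x : V) : x ∈ XX N L z ↔ ∀ z', z ∈ N z' → x ∈ L z' := by
  simp [XX]

/-- the cost -/
def oo (N L W : V → Finset V) : ℤ := (∑ a, dc N (L a)) + ∑ a, dc N (W a)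

variable {N L W : V → Finset V}

omit [Fintype V] [DecidableEq V] in
lemma Fam.lmem (hr : ∀ v, v ∈ N v) (h : Fam N L W) (a : V) : a ∈ L a := h.l a (hr a)

omit [Fintype V] [DecidableEq V] in
lemma Fam.wmem (hr : ∀ v, v ∈ N v) (h : Fam N L W) (a : V) : a ∈ W a := h.w a (hr a)

lemma Fam.next (hr : ∀ v, v ∈ N v) (h : Fam N L W) :
    Fam N (fun z => clo N (XX N L z)) (fun z => clo N (XX N W z)) where
  l := fun a y hy => (mem_clo _ _ _).2 ⟨a, (mem_XX _ _ _ _).2 fun z' hz' => h.l z' hz', hy⟩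
  w := fun a y hy => (mem_clo _ _ _).2 ⟨a, (mem_XX _ _ _ _).2 fun z' hz' => h.w z' hz', hy⟩
  c := by
    intro a b hb ha
    obtain ⟨x, hx, hbx⟩ := (mem_clo _ _ _).1 hb
    obtain ⟨y, hy, hay⟩ := (mem_clo _ _ _).1 ha
    rw [mem_XX] at hx hy
    have h1 : x ∈ L y := hx y hay
    have h2 : y ∈ W x := hy x hbx
    have h3 : y = x := h.c y x h1 h2
    subst h3
    have h4 : a = y := h.c a y (hx a (hr a)) (h.w y hay)
    have h5 : y = b := h.c y b (h.l y hbx) (hy b (hr b))
    exact h4.trans h5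

/-- column version of `L`, off the diagonal -/
def Lo (L : V → Finset V) (x : V) : Finset V := univ.filter (fun a => x ∈ L a ∧ a ≠ x)

/-- columns: complements of the sets `W x` -/
def Uo (W : V → Finset V) (x : V) : Finset V := (W x)ᶜ

lemma mem_Lo (L : V → Finset V) (x a : V) : a ∈ Lo L x ↔ x ∈ L a ∧ a ≠ x := by simp [Lo]

lemma mem_Uo (W : V → Finset V) (x a : V) : a ∈ Uo W x ↔ a ∉ W x := by simp [Uo]

/-- minimal among the compatible families -/
def Opt (N L W : V → Finset V) : Prop :=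
  Fam N L W ∧ ∀ L' W', Fam N L' W' → oo N L W ≤ oo N L' W'

lemma sum_update (f : Finset V → ℤ) (L : V → Finset V) (a : V) (S : Finset V) :
    ∑ b, f (Function.update L a S b) = (∑ b, f (L b)) + (f S - f (L a)) := by
  rw [← Finset.add_sum_erase _ _ (mem_univ a), ← Finset.add_sum_erase univ (fun b => f (L b)) (mem_univ a)]
  have : ∑ x ∈ univ.erase a, f (Function.update L a S x) = ∑ x ∈ univ.erase a, f (L x) := by
    refine Finset.sum_congr rfl fun x hx => ?_
    rw [Function.update_of_ne (Finset.ne_of_mem_erase hx)]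
  rw [this]
  simp
  ring

omit [Fintype V] in
lemma clo_mono {S T : Finset V} (h : S ⊆ T) : clo N S ⊆ clo N T := by
  intro u hu
  obtain ⟨x, hx, hu⟩ := (mem_clo _ _ _).1 hu
  exact (mem_clo _ _ _).2 ⟨x, h hx, hu⟩

omit [Fintype V] in
/-- a set which can be added without decreasing the excess -/
lemma dc_add {S T : Finset V} (hd : Disjoint S T) (h : dc N S ≤ dc N (S ∪ T)) :
    T.card ≤ (clo N (S ∪ T) \ clo N S).card := by
  unfold dc at h
  rw [Finset.card_union_of_disjoint hd] at h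
  have h1 := Finset.card_sdiff_add_card_eq_card (clo_mono (N := N) (S := S) (T := S ∪ T) subset_union_left)
  push_cast at h
  omega

lemma Opt.row (h : Opt N L W) (a : V) (S : Finset V)
    (hS : ∀ x ∈ S, a ∉ W x ∧ x ∉ L a) : S.card ≤ (clo N (L a ∪ S) \ clo N (L a)).card := by
  refine dc_add ?_ ?_
  · rw [Finset.disjoint_right]
    exact fun x hx => (hS x hx).2
  · have hF : Fam N (Function.update L a (L a ∪ S)) W := by
      refine ⟨fun b => ?_, h.1.w, fun b x hx hb => ?_⟩
      · by_cases hb : b = a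
        · subst hb
          rw [Function.update_self]
          exact (h.1.l b).trans subset_union_left
        · rw [Function.update_of_ne hb]
          exact h.1.l b
      · by_cases hba : b = a
        · subst hba
          rw [Function.update_self] at hx
          rcases mem_union.1 hx with hx | hx
          · exact h.1.c b x hx hb
          · exact absurd hb (hS x hx).1
        · rw [Function.update_of_ne hba] at hx
          exact h.1.c b x hx hb
    have h1 := h.2 _ _ hF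
    unfold oo at h1
    rw [sum_update (dc N)] at h1
    linarith

lemma Opt.symm (h : Opt N L W) : Opt N W L := by
  refine ⟨⟨h.1.w, h.1.l, fun a b hb ha => (h.1.c b a ha hb).symm⟩, fun L' W' hF => ?_⟩
  have := h.2 W' L' ⟨hF.w, hF.l, fun a b hb ha => (hF.c b a ha hb).symm⟩
  unfold oo at this ⊢
  linarith

lemma Opt.hall (hr : ∀ v, v ∈ N v) (h : Opt N L W) : Hall N (Lo L) (Uo W) where
  sub := by
    intro x a ha
    rw [mem_Lo] at ha
    rw [mem_Uo]
    exact fun hW => ha.2 (h.1.c a x ha.1 hW)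
  row := by
    intro a S hS
    refine (h.row a S ?_).trans (Finset.card_le_card ?_)
    · intro x hx
      obtain ⟨h1, h2⟩ := hS x hx
      rw [mem_Uo] at h1
      refine ⟨h1, fun h3 => h2 ((mem_Lo _ _ _).2 ⟨h3, ?_⟩)⟩
      rintro rfl
      exact h1 (h.1.wmem hr a)
    · intro u hu
      rw [mem_sdiff, mem_clo, mem_clo] at hu
      obtain ⟨⟨x, hx, hux⟩, hu2⟩ := hu
      have hxS : x ∈ S := by
        rcases mem_union.1 hx with hx | hx
        · exact absurd ⟨x, hx, hux⟩ hu2
        · exact hx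
      simp only [mem_filter, mem_univ, true_and]
      refine ⟨⟨x, hxS, hux⟩, fun h3 => ?_⟩
      obtain ⟨y, huy, hy⟩ := (mem_EE _ _ _ _).1 h3
      exact hu2 ⟨y, ((mem_Lo _ _ _).1 hy).1, huy⟩
  col := by
    intro x T hT
    refine (h.symm.row x T ?_).trans (Finset.card_le_card ?_)
    · intro a ha
      have h1 := hT ha
      rw [mem_sdiff, mem_Uo, mem_Lo] at h1
      refine ⟨fun h3 => h1.2 ⟨h3, ?_⟩, h1.1⟩
      rintro rfl
      exact h1.1 (h.1.wmem hr a)
    · intro z hz
      rw [mem_sdiff, mem_clo, mem_clo] at hz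
      obtain ⟨⟨y, hy, hzy⟩, hz2⟩ := hz
      have hyT : y ∈ T := by
        rcases mem_union.1 hy with hy | hy
        · exact absurd ⟨y, hy, hzy⟩ hz2
        · exact hy
      rw [mem_covS]
      refine ⟨fun y' hy' => ?_, y, (mem_nin' _ _ _).2 hzy, hyT⟩
      rw [mem_Uo]
      exact fun h4 => hz2 ⟨y', h4, (mem_nin' _ _ _).1 hy'⟩

/-- cardinality of a complement family -/
lemma card_Uo (W : V → Finset V) (x : V) : ((Uo W x).card : ℤ) = Fintype.card V - (W x).card := by
  unfold Uo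
  rw [Finset.card_compl, Nat.cast_sub (Finset.card_le_univ _)]

lemma AA_Uo (N W : V → Finset V) (x : V) : AA N (Uo W) x = Uo (fun z => clo N (W z)) x := by
  ext z
  rw [mem_AA, mem_Uo, mem_clo]
  constructor
  · rintro h1 ⟨y, hy, hzy⟩
    exact (mem_Uo _ _ _).1 (h1 y hzy) hy
  · intro h1 y hy
    rw [mem_Uo]
    exact fun h2 => h1 ⟨y, h2, hy⟩

lemma EE_Uo (N W : V → Finset V) : EE N (Uo W) = Uo (XX N W) := by
  funext x
  ext z
  rw [mem_EE, mem_Uo, mem_XX]
  push Not
  constructor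
  · rintro ⟨y, hy, hz⟩
    exact ⟨y, hy, (mem_Uo _ _ _).1 hz⟩
  · rintro ⟨y, hy, hz⟩
    exact ⟨y, hy, (mem_Uo _ _ _).2 hz⟩

lemma sum_dc_W (N W : V → Finset V) :
    ∑ x, dc N (W x) = (∑ x, ((Uo W x).card : ℤ)) - ∑ x, ((AA N (Uo W) x).card : ℤ) := by
  rw [← Finset.sum_sub_distrib]
  refine Finset.sum_congr rfl fun x _ => ?_
  rw [AA_Uo, card_Uo, card_Uo]
  unfold dc
  ring

/-- transposition of a family with the diagonal split off -/
lemma sum_split (R : V → Finset V) (C : V → Finset V)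
    (h : ∀ a u, u ∈ R a → a = u ∨ a ∈ C u) :
    ∑ a, ((R a).card : ℤ) ≤ (∑ u, ((C u).card : ℤ)) + Fintype.card V := by
  have h1 : ∑ u, (C u).card = ∑ a, (univ.filter (fun u => a ∈ C u)).card := swapc C
  have h2 : ∀ a, (R a).card ≤ (univ.filter (fun u => a ∈ C u)).card + 1 := by
    intro a
    have : R a ⊆ insert a (univ.filter (fun u => a ∈ C u)) := by
      intro u hu
      rcases h a u hu with h3 | h3
      · rw [h3]; exact mem_insert_self _ _
      · exact mem_insert_of_mem (by simp [h3])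
    exact (Finset.card_le_card this).trans (Finset.card_insert_le _ _)
  have h3 : ∑ a, (R a).card ≤ ∑ a, ((univ.filter (fun u => a ∈ C u)).card + 1) :=
    Finset.sum_le_sum fun a _ => h2 a
  rw [Finset.sum_add_distrib, ← h1] at h3
  simp only [Finset.sum_const, Finset.card_univ, smul_eq_mul, mul_one] at h3
  exact_mod_cast h3

lemma sum_split' (R : V → Finset V) (C : V → Finset V)
    (h : ∀ a u, a ∈ C u → a ≠ u ∧ u ∈ R a) (hd : ∀ a, a ∈ R a) :
    (∑ u, ((C u).card : ℤ)) + Fintype.card V ≤ ∑ a, ((R a).card : ℤ) := by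
  have h1 : ∑ u, (C u).card = ∑ a, (univ.filter (fun u => a ∈ C u)).card := swapc C
  have h2 : ∀ a, (univ.filter (fun u => a ∈ C u)).card + 1 ≤ (R a).card := by
    intro a
    have h4 : a ∉ univ.filter (fun u => a ∈ C u) := by
      simp only [mem_filter, mem_univ, true_and]
      exact fun h5 => (h a a h5).1 rfl
    rw [← Finset.card_insert_of_notMem h4]
    refine Finset.card_le_card ?_
    intro u hu
    rcases mem_insert.1 hu with h3 | h3
    · rw [h3]; exact hd a
    · simp only [mem_filter, mem_univ, true_and] at h3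
      exact (h a u h3).2
  have h3 : ∑ a, ((univ.filter (fun u => a ∈ C u)).card + 1) ≤ ∑ a, (R a).card :=
    Finset.sum_le_sum fun a _ => h2 a
  rw [Finset.sum_add_distrib, ← h1] at h3
  simp only [Finset.sum_const, Finset.card_univ, smul_eq_mul, mul_one] at h3
  exact_mod_cast h3

/-- outer cost, rows -/
lemma sum_dc_L (hr : ∀ v, v ∈ N v) (h : Fam N L W) :
    (∑ u, ((EE N (Lo L) u).card : ℤ)) - ∑ x, ((Lo L x).card : ℤ) ≤ ∑ a, dc N (L a) := by
  have h1 : (∑ u, ((EE N (Lo L) u).card : ℤ)) + Fintype.card V ≤ ∑ a, ((clo N (L a)).card : ℤ) := by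
    refine sum_split' _ _ ?_ ?_
    · intro a u hu
      obtain ⟨x, hux, hx⟩ := (mem_EE _ _ _ _).1 hu
      rw [mem_Lo] at hx
      refine ⟨?_, (mem_clo _ _ _).2 ⟨x, hx.1, hux⟩⟩
      rintro rfl
      exact hx.2 (h.c a x hx.1 (h.w x hux))
    · intro a
      exact (mem_clo _ _ _).2 ⟨a, h.lmem hr a, hr a⟩
  have h2 : ∑ a, ((L a).card : ℤ) ≤ (∑ u, ((Lo L u).card : ℤ)) + Fintype.card V := by
    refine sum_split _ _ fun a u hu => ?_
    by_cases hau : a = u
    · exact Or.inl hau
    · exact Or.inr ((mem_Lo _ _ _).2 ⟨hu, hau⟩)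
  unfold dc
  rw [Finset.sum_sub_distrib]
  linarith

/-- inner cost, rows -/
lemma sum_dc_X (hr : ∀ v, v ∈ N v) (h : Fam N L W) :
    ∑ a, dc N (XX N L a) ≤
      (∑ u, ((AA N (EE N (Lo L)) u).card : ℤ)) - ∑ x, ((AA N (Lo L) x).card : ℤ) := by
  have h1 : (∑ x, ((AA N (Lo L) x).card : ℤ)) + Fintype.card V ≤ ∑ a, ((XX N L a).card : ℤ) := by
    refine sum_split' _ _ ?_ ?_
    · intro z x hz
      rw [mem_AA] at hz
      refine ⟨((mem_Lo _ _ _).1 (hz z (hr z))).2, (mem_XX _ _ _ _).2 fun z' hz' => ?_⟩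
      exact ((mem_Lo _ _ _).1 (hz z' hz')).1
    · intro z
      exact (mem_XX _ _ _ _).2 fun z' hz' => h.l z' hz'
  have h2 : ∑ a, ((clo N (XX N L a)).card : ℤ) ≤
      (∑ u, ((AA N (EE N (Lo L)) u).card : ℤ)) + Fintype.card V := by
    refine sum_split _ _ fun z u hu => ?_
    by_cases hzu : z = u
    · exact Or.inl hzu
    · right
      obtain ⟨x, hx, hux⟩ := (mem_clo _ _ _).1 hu
      rw [mem_XX] at hx
      rw [mem_AA]
      intro z' hz'
      rw [mem_EE]
      by_cases hxz : z' = x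
      · subst hxz
        by_cases hxu : z' = u
        · subst hxu
          exact absurd (h.c z z' (hx z (hr z)) (h.w z' hz')) hzu
        · exact ⟨u, hr u, (mem_Lo _ _ _).2 ⟨h.l z' hux, hxu⟩⟩
      · exact ⟨x, hux, (mem_Lo _ _ _).2 ⟨hx z' hz', hxz⟩⟩
  unfold dc
  rw [Finset.sum_sub_distrib]
  linarith

/-- THE SHIFT INEQUALITY -/
theorem shift (hr : ∀ v, v ∈ N v) (h : Opt N L W) :
    oo N (XX N L) (XX N W) ≤ oo N L W := by
  have h2 := twoD (h.hall hr)
  have hH := h.hall hr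
  have hEsub : ∀ u, EE N (Lo L) u ⊆ EE N (Uo W) u := by
    intro u a ha
    obtain ⟨x, hx, hxL⟩ := (mem_EE _ _ _ _).1 ha
    exact (mem_EE _ _ _ _).2 ⟨x, hx, hH.sub x hxL⟩
  have hA : ∀ (B C : V → Finset V), (∀ u, B u ⊆ C u) → ∀ u, AA N B u ⊆ AA N C u := by
    intro B C hBC u z hz
    rw [mem_AA] at hz ⊢
    exact fun y hy => hBC u (hz y hy)
  have hs : ∀ (B C : V → Finset V), (∀ u, B u ⊆ C u) →
      ((∑ u, (C u \ B u).card : ℕ) : ℤ) = (∑ u, ((C u).card : ℤ)) - ∑ u, ((B u).card : ℤ) := by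
    intro B C hBC
    push_cast
    rw [← Finset.sum_sub_distrib]
    refine Finset.sum_congr rfl fun u _ => ?_
    have := Finset.card_sdiff_add_card_eq_card (hBC u)
    omega
  have h2' : ((∑ x, (AA N (Uo W) x \ AA N (Lo L) x).card : ℕ) : ℤ) +
      ((∑ u, (EE N (Uo W) u \ EE N (Lo L) u).card : ℕ) : ℤ) ≤
      ((∑ u, (AA N (EE N (Uo W)) u \ AA N (EE N (Lo L)) u).card : ℕ) : ℤ) +
      ((∑ x, (Uo W x \ Lo L x).card : ℕ) : ℤ) := by
    exact_mod_cast h2
  rw [hs _ _ (hA _ _ hH.sub), hs _ _ hEsub, hs _ _ (hA _ _ hEsub), hs _ _ hH.sub] at h2'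
  have h3 := sum_dc_L hr h.1
  have h4 := sum_dc_X hr h.1
  have h5 := sum_dc_W N W
  have h6 := sum_dc_W N (XX N W)
  rw [← EE_Uo] at h6
  unfold oo
  linarith

end Vale.Agent.P038.H972
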