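import Mathlib

/-!
# The two dimensional inequality (counting measure)
-/

open Finset

namespace Vale.Agent.P038.H972

variable {V : Type*} [Fintype V] [DecidableEq V]

/-- closed in-neighbourhood of `z` for the closed out-neighbourhoods `N` -/
def nin (N : V → Finset V) (z : V) : Finset V := univ.filter (fun y => z ∈ N y)

omit [Fintype V] in
lemma mem_nin' [Fintype V] (N : V → Finset V) (y z : V) : y ∈ nin N z ↔ z ∈ N y := by
  simp [nin]

/-- the points covered by `T` inside `U` -/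
def covS (N : V → Finset V) (U T : Finset V) : Finset V :=
  univ.filter (fun z => nin N z ⊆ U ∧ ¬ Disjoint (nin N z) T)

def cov (N : V → Finset V) (U T : Finset V) : ℕ := (covS N U T).card

def val (N : V → Finset V) (U T : Finset V) (l : ℝ) : ℝ :=
  (cov N U T : ℝ) - l * (T.card : ℝ)

lemma mem_covS (N : V → Finset V) (U T : Finset V) (z : V) :
    z ∈ covS N U T ↔ nin N z ⊆ U ∧ ∃ y ∈ nin N z, y ∈ T := by
  simp only [covS, mem_filter, mem_univ, true_and, Finset.not_disjoint_iff]

lemma cov_submod (N : V → Finset V) (U S T : Finset V) :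
    cov N U (S ∪ T) + cov N U (S ∩ T) ≤ cov N U S + cov N U T := by
  have h1 : covS N U (S ∪ T) = covS N U S ∪ covS N U T := by
    ext z
    simp only [mem_covS, mem_union]
    constructor
    · rintro ⟨h, y, hy, h1 | h1⟩
      · exact Or.inl ⟨h, y, hy, h1⟩
      · exact Or.inr ⟨h, y, hy, h1⟩
    · rintro (⟨h, y, hy, h1⟩ | ⟨h, y, hy, h1⟩)
      · exact ⟨h, y, hy, Or.inl h1⟩
      · exact ⟨h, y, hy, Or.inr h1⟩
  have h2 : covS N U (S ∩ T) ⊆ covS N U S ∩ covS N U T := by
    intro z
    simp only [mem_covS, mem_inter]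
    rintro ⟨h, y, hy, h1, h2⟩
    exact ⟨⟨h, y, hy, h1⟩, ⟨h, y, hy, h2⟩⟩
  have h3 := Finset.card_union_add_card_inter (covS N U S) (covS N U T)
  have h4 := Finset.card_le_card h2
  unfold cov
  rw [h1]
  omega

lemma val_submod (N : V → Finset V) (U S T : Finset V) (l : ℝ) :
    val N U (S ∪ T) l + val N U (S ∩ T) l ≤ val N U S l + val N U T l := by
  have h1 : ((cov N U (S ∪ T) + cov N U (S ∩ T) : ℕ) : ℝ) ≤ ((cov N U S + cov N U T : ℕ) : ℝ) := by
    exact_mod_cast cov_submod N U S T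
  have h2 : (((S ∪ T).card + (S ∩ T).card : ℕ) : ℝ) = ((S.card + T.card : ℕ) : ℝ) := by
    exact_mod_cast Finset.card_union_add_card_inter S T
  push_cast at h1 h2
  unfold val
  have : l * ((S ∪ T).card : ℝ) + l * ((S ∩ T).card : ℝ) = l * (S.card : ℝ) + l * (T.card : ℝ) := by
    rw [← mul_add, h2, mul_add]
  linarith

lemma exists_top (N : V → Finset V) (U G : Finset V) (l : ℝ) :
    ∃ T, T ⊆ G ∧ (∀ S, S ⊆ G → val N U T l ≤ val N U S l) ∧
      (∀ S, S ⊆ G → val N U S l ≤ val N U T l → S ⊆ T) := by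
  classical
  obtain ⟨T0, hT0, hmin⟩ := Finset.exists_min_image G.powerset (fun T => val N U T l)
    ⟨∅, by simp⟩
  set M : Finset (Finset V) := G.powerset.filter (fun T => val N U T l ≤ val N U T0 l) with hM
  obtain ⟨T, hT, hmax⟩ := Finset.exists_max_image M (fun T => T.card)
    ⟨T0, by simp only [hM, mem_filter]; exact ⟨hT0, le_refl _⟩⟩
  simp only [hM, mem_filter, mem_powerset] at hT hmax hmin hT0
  refine ⟨T, hT.1, fun S hS => hT.2.trans (hmin S hS), fun S hS hST => ?_⟩
  have h1 := val_submod N U S T l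
  have h2 : val N U T0 l ≤ val N U (S ∩ T) l := hmin _ (inter_subset_left.trans hS)
  have h3 : val N U (S ∪ T) l ≤ val N U T0 l := by
    have := hT.2
    linarith
  have h4 := hmax (S ∪ T) ⟨union_subset hS hT.1, h3⟩
  have h5 : T = S ∪ T := Finset.eq_of_subset_of_card_le subset_union_right h4
  rw [h5]
  exact subset_union_left

/-- the largest minimiser of `cov N U T - l * |T|` over `T ⊆ G` -/
noncomputable def top (N : V → Finset V) (U G : Finset V) (l : ℝ) : Finset V :=
  Classical.choose (exists_top N U G l)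

lemma top_sub (N : V → Finset V) (U G : Finset V) (l : ℝ) : top N U G l ⊆ G :=
  (Classical.choose_spec (exists_top N U G l)).1

lemma top_min (N : V → Finset V) (U G : Finset V) (l : ℝ) {S : Finset V} (hS : S ⊆ G) :
    val N U (top N U G l) l ≤ val N U S l :=
  (Classical.choose_spec (exists_top N U G l)).2.1 S hS

lemma top_max (N : V → Finset V) (U G : Finset V) (l : ℝ) {S : Finset V} (hS : S ⊆ G)
    (h : val N U S l ≤ val N U (top N U G l) l) : S ⊆ top N U G l :=
  (Classical.choose_spec (exists_top N U G l)).2.2 S hS h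

/-- monotonicity (M) -/
lemma top_mono (N : V → Finset V) (U U' G P : Finset V) (l : ℝ) (hU : U ⊆ U')
    (hP : ∀ y ∈ P, y ∈ U → y ∈ G) {a : V} (haG : a ∈ G) (ha : a ∈ top N U' P l) :
    a ∈ top N U G l := by
  set T := top N U G l with hT
  set T' := top N U' P l with hT'
  set S := T' ∩ G with hS
  set D := S \ T with hD
  have hTG : T ⊆ G := top_sub N U G l
  have hTP : T' ⊆ P := top_sub N U' P l
  have hDT' : D ⊆ T' := sdiff_subset.trans inter_subset_left
  -- set comparison
  have h1 : covS N U (T ∪ S) \ covS N U T ⊆ covS N U' T' \ covS N U' (T' \ D) := by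
    intro z hz
    rw [mem_sdiff, mem_covS, mem_covS] at hz
    obtain ⟨⟨hzU, y, hy, hyTS⟩, hz2⟩ := hz
    have hmiss : ∀ y ∈ nin N z, y ∉ T := fun y hy hyT => hz2 ⟨hzU, y, hy, hyT⟩
    have hyS : y ∈ S := by
      rcases mem_union.1 hyTS with h | h
      · exact absurd h (hmiss y hy)
      · exact h
    rw [mem_sdiff, mem_covS, mem_covS]
    refine ⟨⟨hzU.trans hU, y, hy, (mem_inter.1 hyS).1⟩, ?_⟩
    rintro ⟨-, y', hy', hy''⟩
    rw [mem_sdiff] at hy''
    have hyU : y' ∈ U := hzU hy'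
    have hyG : y' ∈ G := hP y' (hTP hy''.1) hyU
    have : y' ∈ S := mem_inter.2 ⟨hy''.1, hyG⟩
    exact hy''.2 (mem_sdiff.2 ⟨this, hmiss y' hy'⟩)
  have hsub1 : covS N U T ⊆ covS N U (T ∪ S) := by
    intro z
    simp only [mem_covS]
    rintro ⟨h, y, hy, h'⟩
    exact ⟨h, y, hy, mem_union_left _ h'⟩
  have hsub2 : covS N U' (T' \ D) ⊆ covS N U' T' := by
    intro z
    simp only [mem_covS]
    rintro ⟨h, y, hy, h'⟩
    exact ⟨h, y, hy, (mem_sdiff.1 h').1⟩
  have h2 := Finset.card_le_card h1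
  rw [Finset.card_sdiff_of_subset hsub1, Finset.card_sdiff_of_subset hsub2] at h2
  have h3 := Finset.card_le_card hsub1
  have h4 := Finset.card_le_card hsub2
  have h5 : cov N U (T ∪ S) + cov N U' (T' \ D) ≤ cov N U T + cov N U' T' := by
    unfold cov
    omega
  have h6 : val N U' T' l ≤ val N U' (T' \ D) l := top_min N U' P l (sdiff_subset.trans hTP)
  have h7 : (T' \ D).card + D.card = T'.card := Finset.card_sdiff_add_card_eq_card hDT'
  have h8 : (T ∪ S).card = T.card + D.card := by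
    rw [hD, ← Finset.union_sdiff_self_eq_union]
    exact Finset.card_union_of_disjoint disjoint_sdiff
  have h5' : ((cov N U (T ∪ S) + cov N U' (T' \ D) : ℕ) : ℝ) ≤ ((cov N U T + cov N U' T' : ℕ) : ℝ) := by
    exact_mod_cast h5
  have h7' : (((T' \ D).card + D.card : ℕ) : ℝ) = ((T'.card : ℕ) : ℝ) := by exact_mod_cast h7
  have h8' : (((T ∪ S).card : ℕ) : ℝ) = ((T.card + D.card : ℕ) : ℝ) := by exact_mod_cast h8
  push_cast at h5' h7' h8'
  have h9 : val N U (T ∪ S) l ≤ val N U T l := by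
    unfold val at h6 ⊢
    rw [h8']
    rw [← h7'] at h6
    nlinarith
  have h10 : T ∪ S ⊆ T := top_max N U G l (union_subset hTG inter_subset_right) h9
  exact h10 (mem_union_right _ (mem_inter.2 ⟨ha, haG⟩))

/-- row dilation, given by columns -/
def EE (N B : V → Finset V) : V → Finset V := fun u => (nin N u).biUnion B

/-- column erosion, given by columns -/
def AA (N B : V → Finset V) : V → Finset V := fun x => univ.filter (fun z => nin N z ⊆ B x)

lemma mem_EE (N B : V → Finset V) (a u : V) : a ∈ EE N B u ↔ ∃ x, u ∈ N x ∧ a ∈ B x := by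
  simp [EE, nin]

lemma mem_AA (N B : V → Finset V) (z x : V) : z ∈ AA N B x ↔ ∀ y, z ∈ N y → y ∈ B x := by
  simp [AA, nin, Finset.subset_iff]

lemma swapc (B : V → Finset V) :
    ∑ x, (B x).card = ∑ a, (univ.filter (fun x => a ∈ B x)).card := by
  simp only [Finset.card_eq_sum_ones, Finset.sum_filter]
  rw [Finset.sum_comm]
  refine Finset.sum_congr rfl fun x _ => ?_
  rw [← Finset.sum_filter]
  congr 1
  ext a
  simp

structure Hall (N L U : V → Finset V) : Prop where
  sub : ∀ x, L x ⊆ U x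
  row : ∀ a (S : Finset V), (∀ x ∈ S, a ∈ U x ∧ a ∉ L x) →
    S.card ≤ (univ.filter (fun u => (∃ x ∈ S, u ∈ N x) ∧ a ∉ EE N L u)).card
  col : ∀ x (T : Finset V), T ⊆ U x \ L x → T.card ≤ cov N (U x) T

variable {N L U : V → Finset V}

/-- the level inequality -/
lemma level (h : Hall N L U) (l : ℝ) :
    ∑ x, ((U x \ L x) \ top N (U x) (U x \ L x) l).card ≤
      ∑ u, ((EE N U u \ EE N L u) \ top N (EE N U u) (EE N U u \ EE N L u) l).card := by
  have e1 : ∑ x, ((U x \ L x) \ top N (U x) (U x \ L x) l).card =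
      ∑ a, (univ.filter (fun x => a ∈ (U x \ L x) \ top N (U x) (U x \ L x) l)).card := swapc _
  have e2 : ∑ u, ((EE N U u \ EE N L u) \ top N (EE N U u) (EE N U u \ EE N L u) l).card =
      ∑ a, (univ.filter (fun u => a ∈ (EE N U u \ EE N L u) \
        top N (EE N U u) (EE N U u \ EE N L u) l)).card := swapc _
  rw [e1, e2]
  refine Finset.sum_le_sum fun a _ => ?_
  refine (h.row a _ ?_).trans (Finset.card_le_card ?_)
  · intro x hx
    simp only [mem_filter, mem_univ, true_and, mem_sdiff] at hx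
    exact hx.1
  · intro u hu
    simp only [mem_filter, mem_univ, true_and, mem_sdiff] at hu ⊢
    obtain ⟨⟨x, ⟨⟨hxU, hxL⟩, hxT⟩, hux⟩, huL⟩ := hu
    refine ⟨⟨(mem_EE N U a u).2 ⟨x, hux, hxU⟩, huL⟩, fun hT => hxT ?_⟩
    refine top_mono N (U x) (EE N U u) (U x \ L x) (EE N U u \ EE N L u) l ?_ ?_
      (mem_sdiff.2 ⟨hxU, hxL⟩) hT
    · intro y hy
      exact (mem_EE N U y u).2 ⟨x, hux, hy⟩
    · intro y hy hyU
      rw [mem_sdiff] at hy ⊢
      exact ⟨hyU, fun hyL => hy.2 ((mem_EE N L y u).2 ⟨x, hux, hyL⟩)⟩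

lemma val_shift (N : V → Finset V) (U T : Finset V) (l l' : ℝ) :
    val N U T l' = val N U T l - (l' - l) * (T.card : ℝ) := by
  unfold val; ring

/-- the potential -/
noncomputable def Phi (N L U : V → Finset V) (l : ℝ) : ℝ :=
  ∑ u, (val N (EE N U u) (top N (EE N U u) (EE N U u \ EE N L u) l) l
      + l * ((EE N U u \ EE N L u).card : ℝ))
  - ∑ x, (val N (U x) (top N (U x) (U x \ L x) l) l + l * ((U x \ L x).card : ℝ))

noncomputable def tau (N L U : V → Finset V) (l : ℝ) : ℝ :=
  ∑ x, ((top N (U x) (U x \ L x) l).card : ℝ)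

omit [Fintype V] in
lemma card_sdiff_real {A B : Finset V} (h : B ⊆ A) :
    ((A \ B).card : ℝ) = (A.card : ℝ) - (B.card : ℝ) := by
  have := Finset.card_sdiff_add_card_eq_card h
  have h2 : (((A \ B).card + B.card : ℕ) : ℝ) = (A.card : ℝ) := by exact_mod_cast this
  push_cast at h2
  linarith

lemma step (h : Hall N L U) {l l' : ℝ} (hl : l ≤ l') :
    Phi N L U l - (l' - l) * (tau N L U l' - tau N L U l) ≤ Phi N L U l' := by
  have hu : ∀ u, val N (EE N U u) (top N (EE N U u) (EE N U u \ EE N L u) l) l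
      - (l' - l) * ((top N (EE N U u) (EE N U u \ EE N L u) l').card : ℝ)
      ≤ val N (EE N U u) (top N (EE N U u) (EE N U u \ EE N L u) l') l' := by
    intro u
    have h1 := top_min N (EE N U u) (EE N U u \ EE N L u) l
      (top_sub N (EE N U u) (EE N U u \ EE N L u) l')
    have h2 := val_shift N (EE N U u) (top N (EE N U u) (EE N U u \ EE N L u) l') l l'
    linarith
  have hx : ∀ x, val N (U x) (top N (U x) (U x \ L x) l') l'
      ≤ val N (U x) (top N (U x) (U x \ L x) l) l
        - (l' - l) * ((top N (U x) (U x \ L x) l).card : ℝ) := by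
    intro x
    have h1 := top_min N (U x) (U x \ L x) l' (top_sub N (U x) (U x \ L x) l)
    have h2 := val_shift N (U x) (top N (U x) (U x \ L x) l) l l'
    linarith
  have hlev := level h l'
  have hlev' : ∑ x, (((U x \ L x).card : ℝ) - ((top N (U x) (U x \ L x) l').card : ℝ)) ≤
      ∑ u, (((EE N U u \ EE N L u).card : ℝ)
        - ((top N (EE N U u) (EE N U u \ EE N L u) l').card : ℝ)) := by
    have : ((∑ x, ((U x \ L x) \ top N (U x) (U x \ L x) l').card : ℕ) : ℝ) ≤
      ((∑ u, ((EE N U u \ EE N L u) \ top N (EE N U u) (EE N U u \ EE N L u) l').card : ℕ) : ℝ) := by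
      exact_mod_cast hlev
    push_cast at this
    simp only [card_sdiff_real (top_sub _ _ _ _)] at this
    exact this
  have hsu := Finset.sum_le_sum (fun u (_ : u ∈ (univ : Finset V)) => hu u)
  have hsx := Finset.sum_le_sum (fun x (_ : x ∈ (univ : Finset V)) => hx x)
  simp only [Finset.sum_sub_distrib, ← Finset.mul_sum] at hsu hsx hlev'
  unfold Phi tau
  simp only [Finset.sum_add_distrib, ← Finset.mul_sum]
  nlinarith [mul_le_mul_of_nonneg_left hlev' (sub_nonneg.2 hl)]

lemma steps (h : Hall N L U) {e : ℝ} (he : 0 ≤ e) (j : ℕ) :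
    Phi N L U 1 - e * (tau N L U (1 + j * e) - tau N L U 1) ≤ Phi N L U (1 + j * e) := by
  induction j with
  | zero => simp
  | succ j ih =>
    have h1 := step h (l := 1 + j * e) (l' := 1 + (j + 1 : ℕ) * e) (by push_cast; nlinarith)
    have h2 : (1 + ((j + 1 : ℕ) : ℝ) * e) - (1 + j * e) = e := by push_cast; ring
    rw [h2] at h1
    nlinarith

lemma cov_empty (N : V → Finset V) (U : Finset V) : cov N U ∅ = 0 := by
  unfold cov covS
  simp

lemma cov_le (N : V → Finset V) (U T : Finset V) : cov N U T ≤ Fintype.card V :=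
  Finset.card_le_univ _

/-- inherited column Hall condition at the level `1` -/
lemma colE (h : Hall N L U) (u : V) (T : Finset V) (hT : T ⊆ EE N U u \ EE N L u) :
    T.card ≤ cov N (EE N U u) T := by
  set n : ℝ := (Fintype.card V : ℝ) with hn
  have hn0 : 0 ≤ n := by positivity
  set l : ℝ := 1 - 1 / (n + 1) with hl
  have hn1 : 0 < n + 1 := by linarith
  have hl1 : l < 1 := by
    have : 0 < 1 / (n + 1) := by positivity
    linarith
  have htop : ∀ x, top N (U x) (U x \ L x) l = ∅ := by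
    intro x
    by_contra hne
    have hpos : 0 < (top N (U x) (U x \ L x) l).card :=
      Finset.card_pos.2 (Finset.nonempty_iff_ne_empty.2 hne)
    have h1 := top_min N (U x) (U x \ L x) l (S := ∅) (by simp)
    have h2 := h.col x _ (top_sub N (U x) (U x \ L x) l)
    have h2' : ((top N (U x) (U x \ L x) l).card : ℝ) ≤
      (cov N (U x) (top N (U x) (U x \ L x) l) : ℝ) := by exact_mod_cast h2
    have hpos' : (0 : ℝ) < ((top N (U x) (U x \ L x) l).card : ℝ) := by exact_mod_cast hpos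
    unfold val at h1
    rw [cov_empty] at h1
    simp only [Nat.cast_zero, Finset.card_empty, mul_zero, sub_zero] at h1
    nlinarith
  have htopE : top N (EE N U u) (EE N U u \ EE N L u) l = ∅ := by
    rw [Finset.eq_empty_iff_forall_notMem]
    intro a ha
    have haP := top_sub N (EE N U u) (EE N U u \ EE N L u) l ha
    rw [mem_sdiff] at haP
    obtain ⟨x, hux, hxU⟩ := (mem_EE N U a u).1 haP.1
    have hxL : a ∉ L x := fun hxL => haP.2 ((mem_EE N L a u).2 ⟨x, hux, hxL⟩)
    have := top_mono N (U x) (EE N U u) (U x \ L x) (EE N U u \ EE N L u) l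
      (fun y hy => (mem_EE N U y u).2 ⟨x, hux, hy⟩)
      (fun y hy hyU => by
        rw [mem_sdiff] at hy ⊢
        exact ⟨hyU, fun hyL => hy.2 ((mem_EE N L y u).2 ⟨x, hux, hyL⟩)⟩)
      (mem_sdiff.2 ⟨hxU, hxL⟩) ha
    rw [htop x] at this
    simp at this
  have h1 := top_min N (EE N U u) (EE N U u \ EE N L u) l hT
  rw [htopE] at h1
  unfold val at h1
  rw [cov_empty] at h1
  simp only [Nat.cast_zero, Finset.card_empty, mul_zero, sub_zero] at h1
  have hTn : (T.card : ℝ) ≤ n := by
    rw [hn]; exact_mod_cast Finset.card_le_univ T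
  have h2 : (T.card : ℝ) - 1 < (cov N (EE N U u) T : ℝ) := by
    have h3 : l * (T.card : ℝ) = (T.card : ℝ) - (T.card : ℝ) / (n + 1) := by
      rw [hl]; field_simp
    have h4 : (T.card : ℝ) / (n + 1) < 1 := by
      rw [div_lt_one hn1]; linarith
    linarith
  have h5 : (T.card : ℝ) < ((cov N (EE N U u) T + 1 : ℕ) : ℝ) := by push_cast; linarith
  have h6 : T.card < cov N (EE N U u) T + 1 := by exact_mod_cast h5
  omega

lemma card_Q (N : V → Finset V) (L U : V → Finset V) (x : V) :
    (AA N U x \ AA N L x).card = cov N (U x) (U x \ L x) := by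
  unfold cov
  congr 1
  ext z
  rw [mem_sdiff, mem_AA, mem_AA, mem_covS]
  constructor
  · rintro ⟨h1, h2⟩
    push Not at h2
    obtain ⟨y, hy, hyL⟩ := h2
    refine ⟨fun y hy => h1 y ((mem_nin' N y z).1 hy), y, (mem_nin' N y z).2 hy,
      mem_sdiff.2 ⟨h1 y hy, hyL⟩⟩
  · rintro ⟨h1, y, hy, hyG⟩
    rw [mem_sdiff] at hyG
    exact ⟨fun y hy => h1 ((mem_nin' N y z).2 hy), fun h => hyG.2 (h y ((mem_nin' N y z).1 hy))⟩

lemma lowEnd (h : Hall N L U) :
    (∑ u, ((EE N U u \ EE N L u).card : ℝ)) - ∑ x, ((U x \ L x).card : ℝ)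
      ≤ Phi N L U 1 := by
  unfold Phi
  have h1 : ∀ u, ((EE N U u \ EE N L u).card : ℝ) ≤
      val N (EE N U u) (top N (EE N U u) (EE N U u \ EE N L u) 1) 1
        + 1 * ((EE N U u \ EE N L u).card : ℝ) := by
    intro u
    have h2 := colE h u _ (top_sub N (EE N U u) (EE N U u \ EE N L u) 1)
    have h3 : ((top N (EE N U u) (EE N U u \ EE N L u) 1).card : ℝ) ≤
      (cov N (EE N U u) (top N (EE N U u) (EE N U u \ EE N L u) 1) : ℝ) := by exact_mod_cast h2
    unfold val
    linarith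
  have h2 : ∀ x, val N (U x) (top N (U x) (U x \ L x) 1) 1 + 1 * ((U x \ L x).card : ℝ)
      ≤ ((U x \ L x).card : ℝ) := by
    intro x
    have h3 := top_min N (U x) (U x \ L x) 1 (S := ∅) (by simp)
    have h4 : val N (U x) ∅ 1 = 0 := by
      unfold val; rw [cov_empty]; simp
    linarith
  have h3 := Finset.sum_le_sum (fun u (_ : u ∈ (univ : Finset V)) => h1 u)
  have h4 := Finset.sum_le_sum (fun x (_ : x ∈ (univ : Finset V)) => h2 x)
  exact sub_le_sub h3 h4

lemma upEnd {l : ℝ} (hl : (Fintype.card V : ℝ) ≤ l) : Phi N L U l ≤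
      (∑ u, (cov N (EE N U u) (EE N U u \ EE N L u) : ℝ))
        - ∑ x, (cov N (U x) (U x \ L x) : ℝ) := by
  have hl0 : 0 ≤ l := le_trans (by positivity) hl
  unfold Phi
  have h1 : ∀ u, val N (EE N U u) (top N (EE N U u) (EE N U u \ EE N L u) l) l
        + l * ((EE N U u \ EE N L u).card : ℝ)
      ≤ (cov N (EE N U u) (EE N U u \ EE N L u) : ℝ) := by
    intro u
    have h2 := top_min N (EE N U u) (EE N U u \ EE N L u) l (S := EE N U u \ EE N L u)
      (le_refl _)
    unfold val at h2 ⊢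
    linarith
  have h2 : ∀ x, (cov N (U x) (U x \ L x) : ℝ) ≤
      val N (U x) (top N (U x) (U x \ L x) l) l + l * ((U x \ L x).card : ℝ) := by
    intro x
    set T := top N (U x) (U x \ L x) l with hT
    have hTG : T ⊆ U x \ L x := top_sub N (U x) (U x \ L x) l
    by_cases hc : T = U x \ L x
    · rw [hc]; unfold val; linarith
    · have h3 : T.card < (U x \ L x).card :=
        Finset.card_lt_card (hTG.ssubset_of_ne hc)
      have h4 : (T.card : ℝ) + 1 ≤ ((U x \ L x).card : ℝ) := by exact_mod_cast h3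
      have h5 : (cov N (U x) (U x \ L x) : ℝ) ≤ (Fintype.card V : ℝ) := by
        exact_mod_cast cov_le N (U x) (U x \ L x)
      have h6 : (0 : ℝ) ≤ (cov N (U x) T : ℝ) := by positivity
      have h7 : l * 1 ≤ l * (((U x \ L x).card : ℝ) - (T.card : ℝ)) :=
        mul_le_mul_of_nonneg_left (by linarith) hl0
      unfold val
      rw [mul_sub] at h7
      linarith
  have h3 := Finset.sum_le_sum (fun u (_ : u ∈ (univ : Finset V)) => h1 u)
  have h4 := Finset.sum_le_sum (fun x (_ : x ∈ (univ : Finset V)) => h2 x)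
  exact sub_le_sub h3 h4

lemma tau_bd (N L U : V → Finset V) (l : ℝ) :
    tau N L U l - tau N L U 1 ≤ (Fintype.card V : ℝ) * (Fintype.card V : ℝ) := by
  have h1 : tau N L U l ≤ ∑ _x : V, (Fintype.card V : ℝ) := by
    unfold tau
    refine Finset.sum_le_sum fun x _ => ?_
    exact_mod_cast Finset.card_le_univ _
  have h2 : (0 : ℝ) ≤ tau N L U 1 := by unfold tau; positivity
  simp only [Finset.sum_const, Finset.card_univ, nsmul_eq_mul] at h1
  linarith

lemma arith (n : ℕ) : (n : ℝ) / ((n ^ 3 + 1 : ℕ) : ℝ) * ((n : ℝ) * n) < 1 := by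
  have hm0 : (0 : ℝ) < ((n ^ 3 + 1 : ℕ) : ℝ) := by positivity
  rw [div_mul_eq_mul_div, div_lt_one hm0]
  push_cast
  have : (n : ℝ) * ((n : ℝ) * n) = (n : ℝ) ^ 3 := by ring
  linarith

lemma phi_diff (h : Hall N L U) :
    (∑ u, ((EE N U u \ EE N L u).card : ℝ)) - ∑ x, ((U x \ L x).card : ℝ) - 1 <
      (∑ u, (cov N (EE N U u) (EE N U u \ EE N L u) : ℝ))
        - ∑ x, (cov N (U x) (U x \ L x) : ℝ) := by
  set n : ℕ := Fintype.card V with hn
  set e : ℝ := (n : ℝ) / ((n ^ 3 + 1 : ℕ) : ℝ) with he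
  have he0 : 0 ≤ e := by positivity
  have hme : ((n ^ 3 + 1 : ℕ) : ℝ) * e = n := by
    rw [he]; field_simp
  have hst := steps h he0 (n ^ 3 + 1)
  rw [hme] at hst
  have hupp := upEnd (N := N) (L := L) (U := U) (l := 1 + (n : ℝ)) (by rw [← hn]; linarith)
  have hlow := lowEnd h
  have herr : e * (tau N L U (1 + n) - tau N L U 1) < 1 :=
    lt_of_le_of_lt (mul_le_mul_of_nonneg_left (tau_bd N L U (1 + n)) he0) (arith n)
  linarith

/-- THE TWO DIMENSIONAL INEQUALITY -/
theorem twoD (h : Hall N L U) :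
    ∑ x, (AA N U x \ AA N L x).card + ∑ u, (EE N U u \ EE N L u).card ≤
      ∑ u, (AA N (EE N U) u \ AA N (EE N L) u).card + ∑ x, (U x \ L x).card := by
  have hEsub : ∀ u, EE N L u ⊆ EE N U u := by
    intro u a ha
    obtain ⟨x, hx, hxL⟩ := (mem_EE N L a u).1 ha
    exact (mem_EE N U a u).2 ⟨x, hx, h.sub x hxL⟩
  have hQ : ∀ x, (AA N U x \ AA N L x).card = cov N (U x) (U x \ L x) :=
    card_Q N L U
  have hR : ∀ u, (AA N (EE N U) u \ AA N (EE N L) u).card
      = cov N (EE N U u) (EE N U u \ EE N L u) := card_Q N (EE N L) (EE N U)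
  simp only [hQ, hR]
  have h1 := phi_diff h
  have hfin : (((∑ x, cov N (U x) (U x \ L x)) + ∑ u, (EE N U u \ EE N L u).card : ℕ) : ℝ) <
      (((∑ u, cov N (EE N U u) (EE N U u \ EE N L u)) + (∑ x, (U x \ L x).card) + 1 : ℕ) : ℝ) := by
    push_cast
    linarith
  have hfin' : (∑ x, cov N (U x) (U x \ L x)) + ∑ u, (EE N U u \ EE N L u).card <
      (∑ u, cov N (EE N U u) (EE N U u \ EE N L u)) + (∑ x, (U x \ L x).card) + 1 := by
    exact_mod_cast hfin
  omega

end Vale.Agent.P038.H972
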